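import Vale.Agent.P097F.B.Br
import Vale.Agent.P097F.B.Qz
import Vale.Agent.P097Mo.Win

/-!
# P097F: the limit curve of the windows
-/

set_option linter.all false

noncomputable section

namespace Vale.Agent.P097F

open Filter Topology Set Metric Complex
open Vale.Agent.P097D (Lo Decay)
open Vale.Agent.P097W (Envl)
open Vale.Agent.P097M (Gs)

variable {X : DD} {a : ℝ → ℝ} {j : ℕ} {M : ℝ} {𝒰 : Ultrafilter ℕ} {u s : ℕ → ℝ} {g : ℂ → ℂ}

theorem Win.nz (w : Win X a j M 𝒰 u s g) : P097Mo.NZ g (Lo 0) := by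
  obtain ⟨y, m, n⟩ := w.ne
  exact P097Mo.nz_of w.seq.op (convex_halfSpace_im_lt 0).isPreconnected w.seq.dg m n

/-- the bound at a good place, at one scale -/
theorem lim_pt {N : ℕ} (E : Envl X.η X.u₀ X.p N a) (hN : 2 * j ≤ N) {v σ : ℝ} (pk : X.Pk a v)
    (k : ℤ) (G : P097W.Good X.r (deriv X.θ) X.Q a (X.η v) (2 * j) M (σ + X.η v * k)) {y : ℂ}
    (y0 : y.im < 0) (y1 : X.η v * (-y.im) ≤ X.r) :
    (‖X.gw v σ (y + k)‖ ^ 2 * (-y.im) ^ 2 / max 1 (1 / (-y.im)) ^ (2 * X.p)) ^ j ≤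
      4 ^ j * (1 + |M|) * (max (-y.im) (1 / (-y.im)) * (1 + |y.re| / (-y.im))) ^ 2 := by
  obtain ⟨⟨u0, -⟩, d0, pk⟩ := pk
  set d := X.η v with hd
  set t := -y.im with ht
  have t0 : 0 < t := neg_pos.2 y0
  set Y := X.wy v σ (y + k) with hY
  have e1 : X.r - Y.im = d * t := by simp [hY, DD.wy, hd, ht]
  have e2 : Y.re - (σ + d * k) = d * y.re := by
    simp [hY, DD.wy, hd]
    ring
  have τ0 : 0 < d * t := mul_pos d0 t0
  have G1 := G Y (by linarith) (by linarith)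
  rw [e1, e2, mul_div_cancel_left₀ _ d0.ne', show d / (d * t) = 1 / t by field_simp, abs_mul,
    abs_of_pos d0, mul_div_mul_left _ _ d0.ne'] at G1
  set Λ := max t (1 / t) * (1 + |y.re| / t) with hΛ
  have m1 : 1 ≤ max t (1 / t) := by
    rcases le_total 1 t with h | h
    · exact h.trans (le_max_left _ _)
    · exact ((one_le_div t0).2 h).trans (le_max_right _ _)
  have m2 : 1 ≤ 1 + |y.re| / t := le_add_of_nonneg_right (by positivity)
  have Λ1 : max t (1 / t) ≤ Λ := le_mul_of_one_le_right (by linarith) m2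
  have Λ0 : 1 ≤ Λ := m1.trans Λ1
  have a0 : 0 < a (d * t) := one_pos.trans_le (E.one _)
  have ad : 0 < a d := one_pos.trans_le (E.one _)
  have G0 : ‖deriv X.θ Y‖ ^ 2 ≤ Gs (deriv X.θ) X.Q Y := le_add_of_nonneg_right (norm_nonneg _)
  set x := Gs (deriv X.θ) X.Q Y * (d * t) ^ 2 / a (d * t) ^ 2 with hx
  have x0 : 0 ≤ x := div_nonneg (mul_nonneg ((sq_nonneg _).trans G0) (sq_nonneg _)) (sq_nonneg _)
  have h1 : x ^ j ≤ (1 + |M|) * Λ := by
    refine le_of_pow_le_pow_left₀ two_ne_zero (by positivity) ?_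
    rw [← pow_mul, mul_comm j]
    refine G1.trans ?_
    rw [mul_pow (1 + |M|)]
    gcongr
    nlinarith [le_abs_self M, abs_nonneg M]
  set β := a (d * t) / a d with hβ
  have β0 : 0 < β := div_pos a0 ad
  have h2 : ‖X.gw v σ (y + k)‖ ^ 2 * t ^ 2 ≤ 4 * (x * β ^ 2) := by
    have k1 : (a d * v) ^ 2 ≤ (2 * d) ^ 2 := by gcongr
    have k0 := (sq_nonneg _).trans G0
    rw [DD.gw, ← hY, norm_mul, norm_real, Real.norm_of_nonneg u0.le, hx, hβ]
    generalize a (d * t) = A at a0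
    calc _ = ‖deriv X.θ Y‖ ^ 2 * (t / a d) ^ 2 * (a d * v) ^ 2 := by field_simp
      _ ≤ Gs (deriv X.θ) X.Q Y * (t / a d) ^ 2 * (2 * d) ^ 2 := by gcongr
      _ = _ := by field_simp; ring
  set μ := max 1 (1 / t) with hμ
  have μ1 : 1 ≤ μ := le_max_left _ _
  have h3 : (β ^ 2 / μ ^ (2 * X.p)) ^ j ≤ Λ := by
    rcases le_total 1 t with h | h
    · have k1 := E.dec (d * t) d d0 (le_mul_of_one_le_right d0.le h)
      have k2 : β ^ N ≤ t := by
        rw [hβ, div_pow, div_le_iff₀ (by positivity)]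
        exact le_of_mul_le_mul_right (by linarith) d0
      calc _ ≤ (β ^ 2) ^ j := by gcongr; exact div_le_self (by positivity) (one_le_pow₀ μ1)
        _ = β ^ (2 * j) := by rw [pow_mul]
        _ ≤ t := br_pow β0.le h hN k2
        _ ≤ Λ := (le_max_left _ _).trans Λ1
    · have k1 := E.grow d (d * t) τ0 (mul_le_of_le_one_right d0.le h)
      have k2 : β ≤ μ ^ X.p := by
        refine le_trans ?_ (pow_le_pow_left₀ (by positivity) (le_max_right 1 (1 / t)) _)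
        rw [hβ, one_div, inv_pow, ← one_div, div_le_div_iff₀ ad (by positivity)]
        rw [mul_pow] at k1
        exact le_of_mul_le_mul_right (by linarith) (pow_pos d0 X.p)
      refine (pow_le_one₀ (by positivity) ?_).trans Λ0
      rw [div_le_one (by positivity), pow_mul']
      gcongr
  calc _ ≤ (4 * (x * β ^ 2) / μ ^ (2 * X.p)) ^ j := by gcongr
    _ = 4 ^ j * (x ^ j * (β ^ 2 / μ ^ (2 * X.p)) ^ j) := by
      rw [← mul_pow, ← mul_pow]
      congr 1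
      ring
    _ ≤ 4 ^ j * ((1 + |M|) * Λ * Λ) := by gcongr
    _ = _ := by ring

theorem Win.apri {N : ℕ} (E : Envl X.η X.u₀ X.p N a) (hN : 2 * j ≤ N)
    (w : Win X a (2 * j) M 𝒰 u s g) (k : ℤ) (P : X.Pl a (2 * j) M 𝒰 u s k) :
    NC.APri (fun y => g (y + k)) (X.p + 1) j (4 ^ j * (1 + |M|)) := by
  intro y y0
  have t := w.br_cc (y + k) (show (y + k).im < 0 by simpa using y0) _ tendsto_const_nhds
  have d : Tendsto (fun n => X.η (u n) * (-y.im)) 𝒰 (𝓝 0) := by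
    simpa using (w.br_dl.mono_left w.le).mul_const (-y.im)
  rw [Nat.add_sub_cancel]
  refine le_of_tendsto ((((t.norm.pow 2).mul_const _).div_const _).pow j) ?_
  filter_upwards [P, d.eventually (gt_mem_nhds X.dat.cur.rpos)] with n h1 h2
  exact lim_pt E hN (w.pk n) k h1 y0 h2.le

/-- an active point at one scale -/
theorem act_pt {c₁ : ℝ} (c1 : 0 < c₁)
    (act : ∀ u ∈ Ioo 0 X.u₀, ∀ s d A : ℝ, 0 < d → d ≤ X.r → 1 ≤ A →
      P097S.Kc X.r X.θ X.Q s 1 d A → u * A ≤ c₁ * d → X.η u ≤ 16 * d)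
    {v σ s' τ : ℝ} (pk : X.Pk a v) (τ0 : 0 < τ) (τ1 : τ < 1 / 16) (dr : X.η v ≤ X.r)
    (sm : X.ep v ≤ c₁ * τ) : ∃ z : ℂ, τ < -z.im ∧ |z.re - s'| < -z.im ∧ 0 < (X.wy v σ z).im ∧
      c₁ ^ 4 * τ ^ 3 ≤ (v ^ 2 * Gs (deriv X.θ) X.Q (X.wy v σ z)) ^ 2 * (-z.im) ^ 3 := by
  obtain ⟨um, d0, -⟩ := pk
  have u0 := um.1
  set d := X.η v with hd
  rw [DD.ep, div_le_iff₀ d0] at sm
  have K : ¬ P097S.Kc X.r X.θ X.Q (σ + d * s') 1 (τ * d) (c₁ * (τ * d) / v) := fun K => by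
    have := act v um _ _ _ (mul_pos τ0 d0) (by nlinarith) (by rw [one_le_div u0]; linarith) K
      (by rw [mul_div_cancel₀ _ u0.ne'])
    nlinarith
  obtain ⟨y, ⟨y1, y2, y3⟩, k⟩ : ∃ y ∈ P097S.Cn X.r (σ + d * s') 1 (τ * d) 0, _ := by
    by_contra h
    exact K fun y hy => not_not.1 fun n => h ⟨y, hy, n⟩
  have dn : (d : ℂ) ≠ 0 := ofReal_ne_zero.2 d0.ne'
  set t := (X.r - y.im) / d with ht
  have e0 : X.r - y.im = d * t := by rw [ht]; field_simp
  have e : X.wy v σ ((y - σ - X.r * I) / d) = y := by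
    rw [DD.wy, ← hd]
    field_simp
    ring
  have e1 : -((y - σ - X.r * I) / d : ℂ).im = t := by
    rw [div_ofReal_im, ht]
    simp
    ring
  have e2 : ((y - σ - X.r * I) / d : ℂ).re - s' = (y.re - (σ + d * s')) / d := by
    rw [div_ofReal_re]
    simp
    field_simp
    ring
  have t1 : τ < t := by rw [ht, lt_div_iff₀ d0]; exact y2
  have t0 := τ0.trans t1
  refine ⟨(y - σ - X.r * I) / d, by rwa [e1], ?_, by rwa [e], ?_⟩
  · rw [e1, e2, abs_div, abs_of_pos d0, ht]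
    gcongr
    linarith
  rw [e, e1]
  have g1 : ‖deriv X.θ y‖ ^ 4 ≤ Gs (deriv X.θ) X.Q y ^ 2 := by
    rw [show ‖deriv X.θ y‖ ^ 4 = (‖deriv X.θ y‖ ^ 2) ^ 2 by ring]
    gcongr
    exact le_add_of_nonneg_right (norm_nonneg _)
  have g2 : ‖X.Q y‖ ^ 2 ≤ Gs (deriv X.θ) X.Q y ^ 2 := by
    gcongr
    exact le_add_of_nonneg_left (sq_nonneg _)
  have key : (c₁ * (τ * d) / v) ^ 4 * (d * t) ≤
      Gs (deriv X.θ) X.Q y ^ 2 * ((d * t) ^ 4 * (τ * d)) := by
    rw [e0, not_and_or, not_le, not_le] at k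
    rcases k with k | k
    · refine k.le.trans ?_
      rw [mul_pow, mul_assoc]
      gcongr
    · refine k.le.trans ?_
      rw [mul_pow, ← pow_mul, mul_assoc]
      gcongr
  rw [div_pow, div_mul_eq_mul_div, div_le_iff₀ (by positivity)] at key
  refine le_of_mul_le_mul_right ?_ (show 0 < τ * t * d ^ 5 by positivity)
  calc _ = (c₁ * (τ * d)) ^ 4 * (d * t) := by ring
    _ ≤ _ := key
    _ = _ := by ring

theorem Win.act {N : ℕ} {c₁ : ℝ} (c1 : 0 < c₁)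
    (act : ∀ u ∈ Ioo 0 X.u₀, ∀ s d A : ℝ, 0 < d → d ≤ X.r → 1 ≤ A →
      P097S.Kc X.r X.θ X.Q s 1 d A → u * A ≤ c₁ * d → X.η u ≤ 16 * d)
    (E : Envl X.η X.u₀ X.p N a) (w : Win X a j M 𝒰 u s g) (hj : 10 ≤ j) (hN : 10 ≤ N) :
    NC.Act g 1 c₁ := by
  intro s' τ τ0 τ1
  have W := w.br_wq E hj hN
  have qz := P097Mo.cc_of w.seq.op continuousOn_const (B.qz _ _ _ _ _ _ _ _ _ _ X.dat.cur W w.ne)
  obtain ⟨C, far⟩ := W.far
  have el := w.ep0.mono_left w.le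
  set τ' : ℕ → ℝ := fun n => τ * (1 - X.ep (u n)) with hτ
  have tl : Tendsto τ' 𝒰 (𝓝 τ) := by simpa using (el.const_sub 1).const_mul τ
  set m := c₁ ^ 4 * (τ / 2) ^ 3 with hm
  have m0 : 0 < m := by positivity
  set T := max (max 1 |s'|) (C ^ 2 / m ^ 5) with hT
  have ex : ∀ᶠ n in (𝒰 : Filter ℕ), ∃ z : ℂ, τ' n ≤ -z.im ∧ |z.re - s'| ≤ -z.im ∧ -z.im ≤ T ∧
      c₁ ^ 4 * τ' n ^ 3 ≤
        (u n ^ 2 * Gs (deriv X.θ) X.Q (X.wy (u n) (s n) z)) ^ 2 * (-z.im) ^ 3 := by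
    filter_upwards [far, W.dl.eventually (gt_mem_nhds X.dat.cur.rpos),
      tl.eventually (lt_mem_nhds (half_lt_self τ0)),
      el.eventually (gt_mem_nhds (show 0 < c₁ * (τ / 2) by positivity))] with n h1 h2 h3 h4
    have d0 := (w.pk n).2.1
    have e0 : 0 < X.ep (u n) := div_pos (w.pk n).1.1 d0
    obtain ⟨z, z1, z2, z3, z4⟩ := act_pt (σ := s n) (s' := s') c1 act (w.pk n)
      ((half_pos τ0).trans h3) (show τ * (1 - X.ep (u n)) < 1 / 16 by nlinarith) h2.le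
      (h4.le.trans (by gcongr))
    refine ⟨z, z1.le, z2.le, not_lt.1 fun k => ?_, z4⟩
    set t := -z.im with ht
    have t1 : 1 < t := ((le_max_left _ _).trans (le_max_left _ _)).trans_lt k
    have t2 : |s'| < t := ((le_max_right _ _).trans (le_max_left _ _)).trans_lt k
    have t3 : C ^ 2 / m ^ 5 < t := (le_max_right _ _).trans_lt k
    have e1 : X.r - (X.wy (u n) (s n) z).im = X.η (u n) * t := by simp [DD.wy, ht]
    have e2 : (X.wy (u n) (s n) z).re - s n = X.η (u n) * z.re := by simp [DD.wy]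
    have f := h1 _ z3.le (by rw [e1]; nlinarith) (by
      rw [e1, e2, abs_mul, abs_of_pos d0]
      have := abs_sub_abs_le_abs_sub z.re s'
      nlinarith)
    rw [e1, mul_div_cancel_left₀ _ d0.ne'] at f
    set G := Gs (deriv X.θ) X.Q (X.wy (u n) (s n) z) with hG
    have G0 : 0 ≤ G := by rw [hG]; unfold Gs; positivity
    have k1 : m ≤ (u n ^ 2 * G) ^ 2 * t ^ 3 := le_trans (by rw [hm]; gcongr) z4
    have k2 : m ^ 5 ≤ ((u n ^ 2 * G) ^ 2 * t ^ 3) ^ 5 := by gcongr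
    have k3 : ((G * (u n * t) ^ 2) ^ 5) ^ 2 ≤ (C * t ^ 2) ^ 2 := by gcongr
    rw [div_lt_iff₀ (by positivity)] at t3
    have k4 : m ^ 5 * t ^ 5 ≤ C ^ 2 * t ^ 4 := by
      calc _ ≤ ((u n ^ 2 * G) ^ 2 * t ^ 3) ^ 5 * t ^ 5 := by gcongr
        _ = ((G * (u n * t) ^ 2) ^ 5) ^ 2 := by ring
        _ ≤ _ := k3
        _ = _ := by ring
    have k5 : C ^ 2 * t ^ 4 < t * m ^ 5 * t ^ 4 := by gcongr
    nlinarith
  obtain ⟨z, hz⟩ := ex.choice
  have K : IsCompact (Icc (s' - T) (s' + T) ×ℂ Icc (-T) 0) := isCompact_Icc.reProdIm isCompact_Icc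
  obtain ⟨y, -, hy⟩ := K.ultrafilter_le_nhds (𝒰.map z) (le_principal_iff.2 (mem_map.2 (by
    filter_upwards [hz, tl.eventually (lt_mem_nhds τ0)] with n h k
    have := abs_le.1 h.2.1
    exact ⟨⟨by linarith [h.2.2.1], by linarith [h.2.2.1]⟩, by linarith [h.2.2.1],
      by linarith [h.1]⟩)))
  have zl : Tendsto z 𝒰 (𝓝 y) := hy
  have il := ((continuous_im.tendsto y).comp zl).neg
  have y1 : τ ≤ -y.im := le_of_tendsto_of_tendsto tl il (hz.mono fun n h => h.1)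
  have y0 : y.im < 0 := by linarith
  refine ⟨y, y1, ?_, ?_⟩
  · rw [one_mul]
    exact le_of_tendsto_of_tendsto (((continuous_re.tendsto y).comp zl).sub_const s').abs il
      (hz.mono fun n h => h.2.1)
  have l1 := ((((w.br_cc y y0 z zl).norm.pow 2).add (qz y y0 z zl).norm).pow 2).mul (il.pow 3)
  refine (le_of_tendsto_of_tendsto ((tl.pow 3).const_mul (c₁ ^ 4)) l1
    (hz.mono fun n h => h.2.2.2.trans (le_of_eq ?_))).trans (le_of_eq (by rw [norm_zero]; ring))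
  have e : B.pw X.r (s n) (X.η (u n)) (z n) = X.wy (u n) (s n) (z n) := rfl
  simp only [DD.gw, Gs, e, norm_mul, norm_pow, norm_real, Real.norm_eq_abs, mul_pow, sq_abs,
    Function.comp]
  ring

theorem specLIM : Spec_LIM := by
  intro X
  obtain ⟨c₁, c1, act⟩ := X.dat.fam.act X.dat.cur one_pos le_rfl
  exact ⟨1, c₁, zero_le_one, c1, fun j N hj hN a M 𝒰 u s g E w => ⟨_, w.seq.dg, w.seq.sz w.nz,
    w.apri E hN, w.act c1 act E (by omega) (by omega), w.p0, w.dens, w.fe⟩⟩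

end Vale.Agent.P097F
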