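import Vale.Agent.P097F.Fam

/-!
# P097F.U: the universal true family (maximal vertical continuation of the solution)
-/

set_option linter.all false

noncomputable section

namespace Vale.Agent.P097F.U

open Filter Topology Set Metric Complex Vale.Agent.P097 Vale.Agent.P097T Vale.Agent.P097Top
open Vale.Agent.P097N (EE Cv St)
open Vale.Agent.P097S (Cn Ch Kc)

/-- a vertical continuation of `Y` to `Ω` with values in the strip -/
structure VC (r κ : ℝ) (Y : ℂ × ℂ → ℂ) (Ω : Set (ℂ × ℂ)) (Z : ℂ × ℂ → ℂ) : Prop where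
  op : IsOpen Ω
  dZ : DifferentiableOn ℂ Z Ω
  mem : ∀ q ∈ Ω, Z q ∈ Strip r
  lo : ∀ q ∈ Ω, κ / 4 < q.1.im
  dn : ∀ q ∈ Ω, ∀ x : ℂ, x.re = q.1.re → κ / 4 < x.im → x.im ≤ q.1.im → (x, q.2) ∈ Ω
  eq : ∀ q ∈ Ω, q.1.im < κ / 2 → Z q = Y q

/-- the maximal domain -/
def OG (r κ : ℝ) (Y : ℂ × ℂ → ℂ) : Set (ℂ × ℂ) := {q | ∃ Ω Z, VC r κ Y Ω Z ∧ q ∈ Ω}

open Classical in
/-- the universal family -/
def GG (r κ : ℝ) (Y : ℂ × ℂ → ℂ) (q : ℂ × ℂ) : ℂ :=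
  if H : ∃ p : Set (ℂ × ℂ) × (ℂ × ℂ → ℂ), VC r κ Y p.1 p.2 ∧ q ∈ p.1 then H.choose.2 q else Y q

/-- a vertical segment -/
def Sg (x : ℂ) (b : ℝ) : Set ℂ := {z | z.re = x.re ∧ b ≤ z.im ∧ z.im ≤ x.im}

theorem sg_convex (x : ℂ) (b : ℝ) : Convex ℝ (Sg x b) := by
  rintro y ⟨y1, y2, y3⟩ z ⟨z1, z2, z3⟩ p q hp hq e
  obtain rfl : q = 1 - p := by linarith
  refine ⟨?_, ?_, ?_⟩ <;> simp only [add_re, add_im, smul_re, smul_im, smul_eq_mul]
  · rw [y1, z1]; ring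
  · nlinarith
  · nlinarith

theorem sg_compact (x : ℂ) (b : ℝ) : IsCompact (Sg x b) := by
  have : Sg x b = {x.re} ×ℂ Icc b x.im := by
    ext z
    simp [Sg, mem_reProdIm]
  rw [this]
  exact isCompact_singleton.reProdIm isCompact_Icc

variable {r κ : ℝ} {Y Z Z' : ℂ × ℂ → ℂ} {Ω Ω' : Set (ℂ × ℂ)}

theorem VC.an (V : VC r κ Y Ω Z) : AnalyticOnNhd ℂ Z Ω :=
  Hol.analyticOnNhd_of_differentiableOn V.op V.dZ

theorem an_sl {F : ℂ × ℂ → ℂ} {x w : ℂ} (h : AnalyticAt ℂ F (x, w)) :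
    AnalyticAt ℂ (fun z => F (z, w)) x :=
  AnalyticAt.comp (g := F) (f := fun z : ℂ => (z, w)) h (analyticAt_id.prod analyticAt_const)

/-- the identity theorem on a vertical -/
theorem vert {f : ℂ → ℂ} {x : ℂ} {b : ℝ} (hb : b ≤ x.im) (a : ∀ z ∈ Sg x b, AnalyticAt ℂ f z)
    (h : ∀ᶠ z in 𝓝 (⟨x.re, b⟩ : ℂ), f z = 0) : f x = 0 :=
  AnalyticOnNhd.eqOn_zero_of_preconnected_of_eventuallyEq_zero a (sg_convex x b).isPreconnected
    (z₀ := ⟨x.re, b⟩) ⟨rfl, le_rfl, hb⟩ h ⟨rfl, hb, le_rfl⟩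

theorem VC.agree (κ0 : 0 < κ) (V : VC r κ Y Ω Z) (V' : VC r κ Y Ω' Z') {q : ℂ × ℂ} (m : q ∈ Ω)
    (m' : q ∈ Ω') : Z q = Z' q := by
  rcases lt_or_ge q.1.im (κ / 2) with k | k
  · rw [V.eq q m k, V'.eq q m' k]
  have s : ∀ z ∈ Sg q.1 (3 * κ / 8), (z, q.2) ∈ Ω ∩ Ω' := fun z hz =>
    ⟨V.dn q m z hz.1 (by linarith [hz.2.1]) hz.2.2, V'.dn q m' z hz.1 (by linarith [hz.2.1]) hz.2.2⟩
  refine sub_eq_zero.1 (vert (f := fun z => Z (z, q.2) - Z' (z, q.2)) (b := 3 * κ / 8)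
    (by linarith) (fun z hz => (an_sl (V.an _ (s z hz).1)).sub (an_sl (V'.an _ (s z hz).2))) ?_)
  filter_upwards [((V.op.inter V'.op).preimage (Continuous.prodMk_left q.2)).mem_nhds
    (s ⟨q.1.re, 3 * κ / 8⟩ ⟨rfl, le_rfl, by simp only; linarith⟩),
    continuous_im.continuousAt.eventually (gt_mem_nhds
      (show (⟨q.1.re, 3 * κ / 8⟩ : ℂ).im < κ / 2 by simp only; linarith))] with z k1 k2
  rw [V.eq _ k1.1 k2, V'.eq _ k1.2 k2, sub_self]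

theorem VC.sub (V : VC r κ Y Ω Z) : Ω ⊆ OG r κ Y := fun _ m => ⟨Ω, Z, V, m⟩

theorem VC.eqG (κ0 : 0 < κ) (V : VC r κ Y Ω Z) {q : ℂ × ℂ} (m : q ∈ Ω) : GG r κ Y q = Z q := by
  have H : ∃ p : Set (ℂ × ℂ) × (ℂ × ℂ → ℂ), VC r κ Y p.1 p.2 ∧ q ∈ p.1 := ⟨(Ω, Z), V, m⟩
  rw [GG, dif_pos H]
  exact H.choose_spec.1.agree κ0 V H.choose_spec.2 m

theorem VC.evG (κ0 : 0 < κ) (V : VC r κ Y Ω Z) {q : ℂ × ℂ} (m : q ∈ Ω) : GG r κ Y =ᶠ[𝓝 q] Z :=
  (V.op.eventually_mem m).mono fun _ k => V.eqG κ0 k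

/-- the universal family is a vertical continuation -/
theorem vcG (κ0 : 0 < κ) : VC r κ Y (OG r κ Y) (GG r κ Y) := by
  refine ⟨isOpen_iff_mem_nhds.2 ?_, ?_, ?_, ?_, ?_, ?_⟩
  · rintro q ⟨Ω, Z, V, m⟩
    exact mem_of_superset (V.op.mem_nhds m) V.sub
  · rintro q ⟨Ω, Z, V, m⟩
    exact ((V.an q m).differentiableAt.congr_of_eventuallyEq (V.evG κ0 m)).differentiableWithinAt
  · rintro q ⟨Ω, Z, V, m⟩
    rw [V.eqG κ0 m]
    exact V.mem q m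
  · rintro q ⟨Ω, Z, V, m⟩
    exact V.lo q m
  · rintro q ⟨Ω, Z, V, m⟩ x x1 x2 x3
    exact V.sub (V.dn q m x x1 x2 x3)
  · rintro q ⟨Ω, Z, V, m⟩ k
    rw [V.eqG κ0 m, V.eq q m k]

/-- a function which is analytic along one vertical -/
theorem tube (κ0 : 0 < κ) {x w : ℂ} (x0 : κ / 4 < x.im)
    (a : ∀ z ∈ Sg x (κ / 4), AnalyticAt ℂ Z (z, w) ∧ Z (z, w) ∈ Strip r ∧
      ∀ᶠ q in 𝓝 (z, w), q.1.im < κ / 2 → Z q = Y q) :
    (x, w) ∈ OG r κ Y ∧ GG r κ Y =ᶠ[𝓝 (x, w)] Z := by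
  set N : Set (ℂ × ℂ) :=
    {q | AnalyticAt ℂ Z q ∧ Z q ∈ Strip r ∧ (q.1.im < κ / 2 → Z q = Y q)} with hN
  have K : IsCompact (Sg x (κ / 4) ×ˢ ({w} : Set ℂ)) := (sg_compact _ _).prod isCompact_singleton
  obtain ⟨e, e0, he⟩ := K.exists_thickening_subset_open isOpen_interior (t := interior N) (by
    rintro ⟨z, w'⟩ ⟨hz, rfl : w' = w⟩
    obtain ⟨a1, a2, a3⟩ := a z hz
    exact mem_interior_iff_mem_nhds.2 (a1.eventually_analyticAt.and
      ((a1.continuousAt.eventually ((P097N.Bridge.op r).mem_nhds a2)).and a3)))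
  set Ω : Set (ℂ × ℂ) := {q | |q.1.re - x.re| < e / 2 ∧ κ / 4 < q.1.im ∧
    q.1.im < x.im + e / 2 ∧ ‖q.2 - w‖ < e / 2} with hΩ
  have s : ∀ q ∈ Ω, q ∈ N := by
    rintro q ⟨q1, q2, q3, q4⟩
    refine interior_subset (he (mem_thickening_iff.2 ⟨(⟨x.re, min q.1.im x.im⟩, w),
      ⟨⟨rfl, le_min q2.le x0.le, min_le_right _ _⟩, rfl⟩, ?_⟩))
    rw [Prod.dist_eq, max_lt_iff, dist_eq_norm, dist_eq_norm]
    refine ⟨(norm_le_abs_re_add_abs_im _).trans_lt ?_, by linarith⟩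
    have : |q.1.im - min q.1.im x.im| < e / 2 := by
      rw [abs_of_nonneg (sub_nonneg.2 (min_le_left _ _)), sub_lt_comm, lt_min_iff]
      constructor <;> linarith
    simp only [sub_re, sub_im]
    linarith
  have V : VC r κ Y Ω Z := by
    refine ⟨?_, fun q m => (s q m).1.differentiableAt.differentiableWithinAt,
      fun q m => (s q m).2.1, fun q m => m.2.1,
      fun q m z z1 z2 z3 => ⟨by rw [z1]; exact m.1, z2, z3.trans_lt m.2.2.1, m.2.2.2⟩,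
      fun q m => (s q m).2.2⟩
    refine IsOpen.and ?_ (IsOpen.and ?_ (IsOpen.and ?_ ?_)) <;>
      exact isOpen_lt (by fun_prop) (by fun_prop)
  have m : (x, w) ∈ Ω := ⟨by simpa using e0, x0, by simpa using e0, by simpa using e0⟩
  exact ⟨V.sub m, V.evG κ0 m⟩

variable {θ H : ℂ → ℂ}

theorem sol_mem (S : Sol0 θ H κ Y) (kr : 2 * κ ≤ r) {z w : ℂ} (hz : z ∈ Strip κ) (hw : ‖w‖ < κ) :
    Y (z, w) ∈ Strip r := by
  have a := (abs_im_le_norm _).trans (S.bd (z, w) ⟨hz, mem_ball_zero_iff.2 hw⟩)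
  have b : |z.im| < κ := hz
  have c := abs_sub_abs_le_abs_sub (Y (z, w)).im z.im
  show |(Y (z, w)).im| < r
  simp only [sub_im] at a
  linarith

/-- the base of the maximal domain -/
theorem base (S : Sol0 θ H κ Y) (kr : 2 * κ ≤ r) :
    VC r κ Y ({x | κ / 4 < x.im ∧ x.im < κ} ×ˢ ball 0 κ) Y := by
  have s : ∀ x : ℂ, κ / 4 < x.im ∧ x.im < κ → x ∈ Strip κ := fun x k =>
    show |x.im| < κ from abs_lt.2 ⟨by linarith [S.pos, k.1], k.2⟩
  exact ⟨((isOpen_lt continuous_const continuous_im).inter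
    (isOpen_lt continuous_im continuous_const)).prod isOpen_ball,
    S.an.differentiableOn.mono fun q m => ⟨s _ m.1, m.2⟩,
    fun q m => sol_mem S kr (s _ m.1) (mem_ball_zero_iff.1 m.2), fun q m => m.1.1,
    fun q m z _ z2 z3 => ⟨⟨z2, z3.trans_lt m.1.2⟩, m.2⟩, fun _ _ _ => rfl⟩

/-- a continuation upwards of the universal family from the height `b` -/
theorem raise (S : Sol0 θ H κ Y) (kr : 2 * κ ≤ r) {x w : ℂ} (hw : ‖w‖ < κ) {b : ℝ}
    (b1 : κ / 2 ≤ b) (hb : b ≤ x.im) (m : ((⟨x.re, b⟩ : ℂ), w) ∈ OG r κ Y)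
    (e : GG r κ Y =ᶠ[𝓝 ((⟨x.re, b⟩ : ℂ), w)] Z)
    (a : ∀ z ∈ Sg x b, AnalyticAt ℂ Z (z, w) ∧ Z (z, w) ∈ Strip r) :
    (x, w) ∈ OG r κ Y ∧ GG r κ Y =ᶠ[𝓝 (x, w)] Z := by
  classical
  have κ0 := S.pos
  have V : VC r κ Y _ _ := vcG κ0
  set F : ℂ × ℂ → ℂ := fun q => if b < q.1.im then Z q else if q ∈ OG r κ Y then GG r κ Y q
    else Y q with hF
  have ci : Continuous fun q : ℂ × ℂ => q.1.im := by fun_prop
  have f1 : ∀ z : ℂ, b < z.im → F =ᶠ[𝓝 (z, w)] Z := fun z k =>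
    (ci.continuousAt.eventually (lt_mem_nhds k)).mono fun q k => if_pos k
  have f2 : ∀ z : ℂ, z.re = x.re → κ / 4 < z.im → z.im ≤ b → F =ᶠ[𝓝 (z, w)] GG r κ Y := by
    intro z z1 z2 z3
    have m' := V.op.eventually_mem (V.dn _ m z z1 z2 z3)
    rcases z3.eq_or_lt with k | k
    · obtain rfl : z = ⟨x.re, b⟩ := Complex.ext z1 k
      filter_upwards [m', e] with q k1 k2
      simp only [hF, if_pos k1, k2, ite_self]
    · filter_upwards [m', ci.continuousAt.eventually (gt_mem_nhds k)] with q k1 k2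
      simp only [hF, if_pos k1, if_neg (not_lt.2 k2.le)]
  have f3 : ∀ q : ℂ × ℂ, q.1.im < κ / 2 → F q = Y q := fun q k => by
    have k1 : ¬ b < q.1.im := not_lt.2 (k.le.trans b1)
    by_cases k2 : q ∈ OG r κ Y
    · simp only [hF, if_neg k1, if_pos k2]
      exact V.eq q k2 k
    · simp only [hF, if_neg k1, if_neg k2]
  rcases hb.eq_or_lt with k | k
  · subst k
    exact ⟨m, e⟩
  have t := tube (r := r) (Y := Y) (Z := F) κ0 (x := x) (w := w) (by linarith) fun z hz => by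
    refine and_assoc.1 ⟨?_, Eventually.of_forall f3⟩
    rcases lt_or_ge b z.im with j | j
    · obtain ⟨a1, a2⟩ := a z ⟨hz.1, j.le, hz.2.2⟩
      exact ⟨a1.congr (f1 z j).symm, (f1 z j).eq_of_nhds ▸ a2⟩
    rcases hz.2.1.eq_or_lt with i | i
    · have s : z ∈ Strip κ := show |z.im| < κ from abs_lt.2 ⟨by linarith, by linarith⟩
      have g : F =ᶠ[𝓝 (z, w)] Y := (ci.continuousAt.eventually (gt_mem_nhds
        (show (z, w).1.im < κ / 2 by simp only; linarith))).mono f3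
      exact ⟨(S.an _ ⟨s, mem_ball_zero_iff.2 hw⟩).congr g.symm, g.eq_of_nhds ▸ sol_mem S kr s hw⟩
    · have m' := V.dn _ m z hz.1 i j
      have g := f2 z hz.1 i j
      exact ⟨(V.an _ m').congr g.symm, g.eq_of_nhds ▸ V.mem _ m'⟩
  exact ⟨t.1, t.2.trans (f1 x k)⟩

/-- the law holds wherever it makes sense -/
theorem lawG {Q : ℂ → ℂ} {c : ℂ} (C : Cv θ H Q c (St r)) (S : Sol0 θ H κ Y) {x w : ℂ}
    (hw : ‖w‖ < κ / 8) (m1 : (x - w, w) ∈ OG r κ Y) (m2 : (x, w) ∈ OG r κ Y)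
    (m3 : (x + w, w) ∈ OG r κ Y) :
    EE θ H (GG r κ Y (x - w, w)) (GG r κ Y (x, w)) (GG r κ Y (x + w, w)) = 0 := by
  have κ0 := S.pos
  have V : VC r κ Y _ _ := vcG κ0
  have wi := abs_lt.1 ((abs_im_le_norm w).trans_lt hw)
  have low : ∀ z : ℂ, (z - w, w) ∈ OG r κ Y → (z, w) ∈ OG r κ Y → (z + w, w) ∈ OG r κ Y →
      z.im + |w.im| < κ / 2 →
      EE θ H (GG r κ Y (z - w, w)) (GG r κ Y (z, w)) (GG r κ Y (z + w, w)) = 0 := by
    intro z k1 k2 k3 k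
    have l1 := V.lo _ k1
    have l2 := V.lo _ k2
    have l3 := V.lo _ k3
    have j1 : (z - w).im < κ / 2 := by rw [sub_im]; linarith [neg_abs_le w.im]
    have j2 : z.im < κ / 2 := by linarith [abs_nonneg w.im]
    have j3 : (z + w).im < κ / 2 := by rw [add_im]; linarith [le_abs_self w.im]
    simp only at l1 l2 l3
    rw [V.eq _ k1 j1, V.eq _ k2 j2, V.eq _ k3 j3, ← P097N.Bridge.law_eq]
    have st : ∀ y : ℂ, κ / 4 < y.im → y.im < κ / 2 → y ∈ Strip κ := fun y y1 y2 =>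
      show |y.im| < κ from abs_lt.2 ⟨by linarith, by linarith⟩
    exact S.law (z, w) ⟨st _ l2 j2, mem_ball_zero_iff.2 (show ‖w‖ < κ by linarith)⟩ (st _ l1 j1)
      (st _ l3 j3)
  have wa : |w.im| < κ / 8 := abs_lt.2 wi
  rcases lt_or_ge x.im (3 * κ / 8) with k | k
  · exact low x m1 m2 m3 (by linarith)
  have s : ∀ z ∈ Sg x (3 * κ / 8),
      (z - w, w) ∈ OG r κ Y ∧ (z, w) ∈ OG r κ Y ∧ (z + w, w) ∈ OG r κ Y := fun z hz =>
    ⟨V.dn _ m1 _ (by simp [hz.1]) (by rw [sub_im]; linarith [hz.2.1]) (by simpa using hz.2.2),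
      V.dn _ m2 _ hz.1 (by linarith [hz.2.1]) hz.2.2,
      V.dn _ m3 _ (by simp [hz.1]) (by rw [add_im]; linarith [hz.2.1]) (by simpa using hz.2.2)⟩
  refine vert (f := fun z => EE θ H (GG r κ Y (z - w, w)) (GG r κ Y (z, w)) (GG r κ Y (z + w, w)))
    k (fun z hz => ?_) ?_
  · obtain ⟨s1, s2, s3⟩ := s z hz
    have a1 : AnalyticAt ℂ (fun z => GG r κ Y (z - w, w)) z :=
      (an_sl (V.an _ s1)).comp_of_eq (analyticAt_id.sub analyticAt_const) rfl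
    have a2 := an_sl (V.an _ s2)
    have a3 : AnalyticAt ℂ (fun z => GG r κ Y (z + w, w)) z :=
      (an_sl (V.an _ s3)).comp_of_eq (analyticAt_id.add analyticAt_const) rfl
    have K := (P097N.sk θ H Q c _ C).1
    have p1 := K _ (V.mem _ s2) _ (V.mem _ s1)
    have p3 := K _ (V.mem _ s2) _ (V.mem _ s3)
    exact ((p3.1.comp_of_eq (a2.prod a3) rfl).mul (p1.2.1.comp_of_eq (a2.prod a1) rfl)).add
      ((p1.1.comp_of_eq (a2.prod a1) rfl).mul (p3.2.1.comp_of_eq (a2.prod a3) rfl))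
  · obtain ⟨s1, s2, s3⟩ := s ⟨x.re, 3 * κ / 8⟩ ⟨rfl, le_rfl, k⟩
    have c1 : Continuous fun z : ℂ => (z - w, w) := by fun_prop
    have c2 : Continuous fun z : ℂ => (z, w) := by fun_prop
    have c3 : Continuous fun z : ℂ => (z + w, w) := by fun_prop
    have c4 : Continuous fun z : ℂ => z.im + |w.im| := by fun_prop
    filter_upwards [(V.op.preimage c1).mem_nhds s1, (V.op.preimage c2).mem_nhds s2,
      (V.op.preimage c3).mem_nhds s3, c4.continuousAt.eventually (gt_mem_nhds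
        (show (⟨x.re, 3 * κ / 8⟩ : ℂ).im + |w.im| < κ / 2 by simp only; linarith))]
      with z k1 k2 k3 k4 using low z k1 k2 k3 k4

/-- a chart is a vertical continuation -/
theorem ch_vc {s a d ρ : ℝ} (h : Ch θ H Y r κ s a d ρ Z) (a0 : 0 ≤ a) (a1 : a ≤ 1) (d0 : 0 ≤ d)
    (κ0 : 0 < κ) : VC r κ Y (Cn r s a d (κ / 4) ×ˢ ball 0 ρ) Z :=
  ⟨(P097S.Lp.cn_open _ _ _ _ _).prod isOpen_ball, h.dZ,
    fun q m => P097S.Lp.ch_mem h a1 d0 κ0 m.1 m.2, fun q m => m.1.1,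
    fun q m z z1 z2 z3 => ⟨⟨z2, by linarith [m.1.2.1], by
      rw [z1]
      exact m.1.2.2.trans_le (mul_le_mul_of_nonneg_left (by linarith) a0)⟩, m.2⟩,
    fun q m k => h.eq _ m.1 k _ m.2⟩

/-- the universal family is a chart wherever there is one -/
theorem ch_G {s a d ρ : ℝ} (h : Ch θ H Y r κ s a d ρ Z) (a0 : 0 ≤ a) (a1 : a ≤ 1) (d0 : 0 ≤ d)
    (κ0 : 0 < κ) : Ch θ H Y r κ s a d ρ (GG r κ Y) := by
  have V := ch_vc h a0 a1 d0 κ0
  have e : ∀ x ∈ Cn r s a d (κ / 4), ∀ w ∈ ball (0 : ℂ) ρ, GG r κ Y (x, w) = Z (x, w) :=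
    fun x hx w hw => V.eqG κ0 ⟨hx, hw⟩
  refine ⟨h.ρκ, h.dZ.congr fun q m => V.eqG κ0 m, fun x hx k w hw => ?_, fun x hx w hw => ?_,
    fun x hx w hw => ?_, fun x w hw k1 k2 => ?_⟩
  · rw [e x hx w hw, h.eq x hx k w hw]
  · rw [e x hx w hw, e x hx (-w) (by simpa using hw), h.ev x hx w hw]
  · rw [e x hx w hw]
    exact h.bd x hx w hw
  · have k : x ∈ Cn r s a d (κ / 4) := by
      have h2 : (0 : ℝ) ≤ 1 / 2 := by norm_num
      have := P097S.Lp.cn_convex r s a d (κ / 4) k1 k2 h2 h2 (by norm_num)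
      convert this using 1
      simp only [real_smul]
      push_cast
      ring
    rw [e _ k1 w hw, e _ k w hw, e _ k2 w hw]
    exact h.law x w hw k1 k2

variable {u₀ : ℝ} {η : ℝ → ℝ} {L : ℝ → ℂ × ℂ → ℂ}

/-- the real leaves are restrictions of the universal family -/
theorem leafG (F : Fam r κ u₀ θ H Y η L) {u : ℝ} (m : u ∈ Ioo 0 u₀) {x : ℂ} (x0 : κ / 4 < x.im)
    (x1 : x.im < r - η u) : (x, (u : ℂ)) ∈ OG r κ Y ∧ GG r κ Y =ᶠ[𝓝 (x, (u : ℂ))] L u := by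
  have κ0 := F.sol.pos
  refine tube κ0 x0 fun z hz => ?_
  have s : z ∈ Strip (r - η u) := show |z.im| < r - η u from
    abs_lt.2 ⟨by linarith [hz.2.1, hz.2.2], hz.2.2.trans_lt x1⟩
  refine ⟨F.an u m z s, (F.leaf u m).mem z s, ?_⟩
  rcases lt_or_ge z.im κ with k | k
  · exact (F.base u m z (show |z.im| < κ from abs_lt.2 ⟨by linarith [hz.2.1], k⟩)).mono fun q k _ => k.symm
  · exact ((continuous_im.comp continuous_fst).continuousAt.eventually (lt_mem_nhds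
      (show κ / 2 < (z, (u : ℂ)).1.im by simp only; linarith))).mono fun q k j => (k.not_gt j).elim

/-- the top of a real leaf -/
theorem topG (F : Fam r κ u₀ θ H Y η L) {u : ℝ} (m : u ∈ Ioo 0 u₀) {x : ℂ} (x1 : x.im = r - η u)
    (m0 : (x, (u : ℂ)) ∈ OG r κ Y) (m1 : (x + u, (u : ℂ)) ∈ OG r κ Y) : False := by
  have κ0 := F.sol.pos
  have V : VC r κ Y _ _ := vcG κ0
  have c : Continuous fun q : ℂ × ℂ => (q.1 + q.2, q.2) := by fun_prop
  obtain ⟨ρ, ρ0, k⟩ := Metric.mem_nhds_iff.1 ((V.op.inter (V.op.preimage c)).mem_nhds ⟨m0, m1⟩)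
  rw [← ball_prod_same] at k
  refine F.up u m x ρ (GG r κ Y) (fun q => GG r κ Y (q.1 + q.2, q.2)) x1 ρ0
    (fun q hq => V.an q (k hq).1)
    (fun q hq => AnalyticAt.comp (g := GG r κ Y) (f := fun q : ℂ × ℂ => (q.1 + q.2, q.2))
      (V.an _ (k hq).2) ((analyticAt_fst.add analyticAt_snd).prod analyticAt_snd))
    (fun q hq => V.mem q (k hq).1) (fun q hq => V.mem _ (k hq).2) fun z hz => ?_
  have l := V.lo _ (k (mk_mem_prod hz.1 (mem_ball_self ρ0))).1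
  have t := (abs_lt.1 (show |z.im| < r - η u from hz.2)).2
  exact ⟨(leafG F m l t).2, (c.tendsto (z, (u : ℂ))).eventually
    (leafG F m (x := z + u) (by simpa using l) (by simpa using t)).2⟩

end Vale.Agent.P097F.U
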